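import Vale.Agent.P160R.Five.Claim.Tools

/-!
# The class of `v` survives in the part of `Λ₂` mapped into the minimiser
-/

namespace Vale.Agent.P160R.Five

open Matrix Module Finset

set_option linter.unusedSectionVars false
set_option linter.unusedFintypeInType false
set_option linter.unusedDecidableInType false

variable {ι : Type} [Fintype ι] [DecidableEq ι]

/-- The part of `Λ₂` that the rows in `E` map into the minimiser. -/
noncomputable def innerLat (K : ℕ) (B : Matrix ι ι ℤ) (Λ Λ₂ : Submodule ℤ (ι → ℤ)) (E : Finset ι) :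
    Submodule ℤ (ι → ℤ) :=
  Λ₂ ⊓ (minLat K B Λ E).comap (rowMat B E).mulVecLin

lemma dvd_of_dvd_smul {T : Finset ℕ} {v : ι → ℤ}
    (hT : ∀ p ∈ T, p.Prime ∧ ∃ l, ¬ (p : ℤ) ∣ v l) {j : ℤ}
    (h : ∀ l, ((∏ p ∈ T, p : ℕ) : ℤ) ∣ j * v l) : ((∏ p ∈ T, p : ℕ) : ℤ) ∣ j := by
  rw [Int.natCast_dvd]
  refine Finset.prod_primes_dvd _ (fun p hp => (hT p hp).1.prime) fun p hp => ?_
  obtain ⟨hpp, l, hl⟩ := hT p hp
  have h1 : (p : ℤ) ∣ j * v l :=
    (Int.natCast_dvd_natCast.2 (Finset.dvd_prod_of_mem _ hp)).trans (h l)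
  exact Int.natCast_dvd.1 (((Nat.prime_iff_prime_int.1 hpp).dvd_or_dvd h1).resolve_right hl)

/-- A small multiple of `v` is congruent to an element of the inner lattice, whose determinant
is small. -/
theorem semi {L : ℕ} (hL : 1 ≤ L) {B : Matrix ι ι ℤ} (hB : IsSign B)
    (hm : 2 ≤ Fintype.card ι) {Λ Λ₂ : Submodule ℤ (ι → ℤ)} (hΛ : Λ ≤ Λ₂) {e : ℕ}
    (he : finrank ℤ Λ₂ ≤ finrank ℤ Λ + e) {T : Finset ℕ} {v : ι → ℤ} (hv : v ∈ Λ₂)
    (hT : ∀ p ∈ T, p.Prime ∧ (∃ l, ¬ (p : ℤ) ∣ v l) ∧ ∀ l, (p : ℤ) ∣ B.mulVec v l)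
    (E : Finset ι) :
    ∃ (q : ℕ) (x : ι → ℤ), 1 ≤ q ∧
      (q : ℤ) • v + ((∏ p ∈ T, p : ℕ) : ℤ) • x ∈ innerLat (4 * L) B Λ Λ₂ E ∧
      (∃ s ∈ minLat (4 * L) B Λ E, ((∏ p ∈ T, p : ℕ) : ℤ) • s =
        (rowMat B E).mulVec ((q : ℤ) • v + ((∏ p ∈ T, p : ℕ) : ℤ) • x)) ∧
      (q : ℝ) ^ 2 * gdet 1 (innerLat (4 * L) B Λ Λ₂ E) ≤
        (Fintype.card ι : ℝ) ^ (10 * L * e) * gdet 1 Λ₂ := by
  set m := Fintype.card ι with hmdef
  set M : ℕ := ∏ p ∈ T, p with hMdef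
  have hM1 : 1 ≤ M := prod_pos fun p hp => (hT p hp).1.pos
  have hM0 : (M : ℤ) ≠ 0 := by exact_mod_cast (show M ≠ 0 by omega)
  have hMR : (0 : ℝ) < M := by exact_mod_cast hM1
  set F := rowMat B E with hF
  set S := minLat (4 * L) B Λ E with hS
  set L₃ := innerLat (4 * L) B Λ Λ₂ E with hL3
  set A := mapL (scaleMat ι M) Λ₂ with hA
  set Lh := A ⊔ Submodule.span ℤ {v} with hLh
  set MS := mapL (scaleMat E M) S with hMS
  set Lh' := Lh ⊓ MS.comap F.mulVecLin with hLh'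
  have hMv : ∀ l, (M : ℤ) ∣ B.mulVec v l := fun l => by
    rw [Int.natCast_dvd]
    exact Finset.prod_primes_dvd _ (fun p hp => (hT p hp).1.prime) fun p hp =>
      Int.natCast_dvd.1 ((hT p hp).2.2 l)
  have hMΛ : A ≤ Λ₂ := by
    rintro _ hy
    obtain ⟨x, hx, rfl⟩ := mem_mapL_scale.1 hy
    exact Λ₂.smul_mem _ hx
  have hLhΛ : Lh ≤ Λ₂ := sup_le hMΛ ((Submodule.span_singleton_le_iff_mem _ _).2 hv)
  -- the index of `A` in `Lh`
  have hidx : A.toAddSubgroup.relIndex Lh.toAddSubgroup = M := by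
    have e2 : Lh.toAddSubgroup = A.toAddSubgroup ⊔ (Submodule.span ℤ {v}).toAddSubgroup :=
      map_sup AddSubgroup.toIntSubmodule.symm _ _
    rw [e2, sup_comm, AddSubgroup.relIndex_sup_right,
      Submodule.span_singleton_toAddSubgroup_eq_zmultiples, ← AddSubgroup.range_zmultiplesHom,
      ← AddSubgroup.index_comap]
    have : A.toAddSubgroup.comap (zmultiplesHom (ι → ℤ) v) = AddSubgroup.zmultiples (M : ℤ) := by
      ext j
      simp only [AddSubgroup.mem_comap, Submodule.mem_toAddSubgroup, zmultiplesHom_apply, hA,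
        mem_mapL_scale, Int.mem_zmultiples_iff]
      constructor
      · rintro ⟨x, -, hx⟩
        refine dvd_of_dvd_smul (fun p hp => ⟨(hT p hp).1, (hT p hp).2.1⟩) fun l => ⟨x l, ?_⟩
        have := congrFun hx l
        simp only [Pi.smul_apply, smul_eq_mul] at this
        exact this.symm
      · rintro ⟨c, rfl⟩
        exact ⟨c • v, Λ₂.smul_mem _ hv, by rw [smul_smul]⟩
    rw [this, Int.index_zmultiples, Int.natAbs_natCast]
  have hrA : finrank ℤ A = finrank ℤ Λ₂ := finrank_mapL_of_inj (scale_inj hM0 _)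
  have hrh : finrank ℤ A = finrank ℤ Lh := finrank_eq_of_smul_le le_sup_left hM0 fun x hx =>
    mem_mapL_scale.2 ⟨x, hLhΛ hx, rfl⟩
  have eA := gdet_eq_index 1 (le_sup_left : A ≤ Lh) hrh
  rw [hidx, gdet_scale hM0] at eA
  push_cast at eA
  -- the images
  have hFv : ∀ y ∈ mapL F Lh, ∃ z : E → ℤ, (M : ℤ) • z = y := by
    rintro _ ⟨y, hy, rfl⟩
    obtain ⟨a, ha, b, hb, rfl⟩ := Submodule.mem_sup.1 hy
    obtain ⟨x, -, rfl⟩ := mem_mapL_scale.1 ha
    obtain ⟨c, rfl⟩ := Submodule.mem_span_singleton.1 hb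
    choose z hz using fun l : E => hMv l.1
    refine ⟨F.mulVec x + c • z, ?_⟩
    rw [mulVecLin_apply, mulVec_add, mulVec_smul, mulVec_smul, smul_add]
    congr 1
    funext l
    have : F.mulVec v l = B.mulVec v l.1 := rfl
    simp only [Pi.smul_apply, smul_eq_mul, this, hz l]
    ring
  set X := (mapL F Lh).comap (scaleMat E M).mulVecLin with hX
  have hXim : mapL F Lh = mapL (scaleMat E M) X := by
    ext y
    rw [mem_mapL_scale]
    constructor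
    · intro hy
      obtain ⟨z, hz⟩ := hFv y hy
      exact ⟨z, by simp [hX, scaleMat_mulVec, hz, hy], hz⟩
    · rintro ⟨z, hz, rfl⟩
      simpa [hX, scaleMat_mulVec] using hz
  have hX'im : mapL F Lh' = mapL (scaleMat E M) (S ⊓ X) := by
    ext y
    rw [mem_mapL_scale]
    constructor
    · rintro ⟨a, ⟨ha1, ha2⟩, rfl⟩
      obtain ⟨s, hs, hse⟩ := mem_mapL_scale.1 (ha2 : F.mulVec a ∈ MS)
      refine ⟨s, ⟨hs, ?_⟩, hse⟩
      simp only [SetLike.mem_coe, hX, Submodule.mem_comap, mulVecLin_apply, scaleMat_mulVec, hse]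
      exact ⟨a, ha1, rfl⟩
    · rintro ⟨s, ⟨hs, hsX⟩, rfl⟩
      simp only [SetLike.mem_coe, hX, Submodule.mem_comap, mulVecLin_apply, scaleMat_mulVec] at hsX
      obtain ⟨a, ha, hae⟩ := hsX
      exact ⟨a, ⟨ha, mem_mapL_scale.2 ⟨s, hs, hae.symm⟩⟩, hae⟩
  have hker : Lh ⊓ kerL F ≤ Lh' := by
    rintro y ⟨hy, hk⟩
    refine ⟨hy, ?_⟩
    show F.mulVec y ∈ MS
    rw [show F.mulVec y = 0 from hk]
    exact zero_mem _
  have hratio := gdet_ratio (G := (1 : Matrix ι ι ℝ)) PosDef.one (H := (1 : Matrix E E ℝ))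
    PosDef.one F (β := (m : ℝ) ^ 2) (fun x => by simpa using rowMat_norm hB E x)
    (inf_le_left : Lh' ≤ Lh) hker
  rw [hXim, hX'im, gdet_scale hM0, gdet_scale hM0] at hratio
  push_cast at hratio
  set e₁ := finrank ℤ Lh - finrank ℤ Lh' with he₁
  have hsplit : finrank ℤ X = finrank ℤ (S ⊓ X : Submodule ℤ (E → ℤ)) + e₁ := by
    have h1 := finrank_split Lh F
    have h2 := finrank_split Lh' F
    have hk : Lh' ⊓ kerL F = Lh ⊓ kerL F :=
      le_antisymm (inf_le_inf_right _ inf_le_left) (le_inf hker inf_le_right)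
    rw [hk, hX'im, finrank_mapL_of_inj (scale_inj hM0 _)] at h2
    rw [hXim, finrank_mapL_of_inj (scale_inj hM0 _)] at h1
    have h3 := Submodule.finrank_mono (inf_le_right : S ⊓ X ≤ X)
    omega
  have hheight := height_inf_le (by omega : 1 ≤ m) (minLat_spec (4 * L) B Λ E) X
  rw [← hS] at hheight
  simp only [height, hsplit, ← hmdef] at hheight
  rw [mul_add, pow_add, mul_assoc ((m : ℝ) ^ _) ((m : ℝ) ^ _)] at hheight
  have hmR : (0 : ℝ) < m := by exact_mod_cast (show 0 < m by omega)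
  have hXS := le_of_mul_le_mul_left hheight (by positivity)
  -- the inner lattice and `v`
  let H : AddSubgroup ℤ :=
    { carrier := {j | ∃ x ∈ Λ₂, F.mulVec (j • v + (M : ℤ) • x) ∈ MS}
      add_mem' := fun {a b} ⟨x, hx, hxs⟩ ⟨y, hy, hys⟩ => ⟨x + y, Λ₂.add_mem hx hy, by
        rw [add_smul, smul_add, add_add_add_comm, mulVec_add]; exact add_mem hxs hys⟩
      zero_mem' := ⟨0, zero_mem _, by simp⟩
      neg_mem' := fun {a} ⟨x, hx, hxs⟩ => ⟨-x, neg_mem hx, by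
        rw [neg_smul, smul_neg, ← neg_add, mulVec_neg]; exact neg_mem hxs⟩ }
  have hMH : (M : ℤ) ∈ H := ⟨-v, neg_mem hv, by simp⟩
  obtain ⟨a, ha⟩ := Int.subgroup_cyclic H
  have haH : ∀ j, j ∈ H ↔ a ∣ j := fun j => by
    rw [ha, ← AddSubgroup.zmultiples_eq_closure, Int.mem_zmultiples_iff]
  set q := a.natAbs
  have hqH : ∀ j, j ∈ H ↔ (q : ℤ) ∣ j := fun j => by rw [haH, Int.natAbs_dvd]
  have hqM : q ∣ M := Int.natCast_dvd_natCast.1 ((hqH M).1 hMH)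
  have hq1 : 1 ≤ q := Nat.pos_of_dvd_of_pos hqM hM1
  obtain ⟨x₀, hx₀, hx₀s⟩ := (hqH q).2 dvd_rfl
  set η := (q : ℤ) • v + (M : ℤ) • x₀ with hη
  have hηh : η ∈ Lh' := ⟨add_mem (Submodule.mem_sup_right
    (Submodule.smul_mem _ _ (Submodule.mem_span_singleton_self v)))
    (Submodule.mem_sup_left (mem_mapL_scale.2 ⟨x₀, hx₀, rfl⟩)), hx₀s⟩
  have hh3 : Lh' ≤ L₃ := by
    rintro y ⟨hy, hys⟩
    refine ⟨hLhΛ hy, ?_⟩
    have hys' : F.mulVec y ∈ MS := hys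
    obtain ⟨s, hs, hse⟩ := mem_mapL_scale.1 hys'
    show F.mulVec y ∈ S
    rw [← hse]
    exact S.smul_mem _ hs
  have hcancel : ∀ y ∈ Λ₂, F.mulVec ((M : ℤ) • y) ∈ MS → y ∈ L₃ := by
    intro y hy hys
    refine ⟨hy, ?_⟩
    obtain ⟨s, hs, hse⟩ := mem_mapL_scale.1 hys
    show F.mulVec y ∈ S
    rw [mulVec_smul] at hse
    rw [← smul_right_injective _ hM0 hse]
    exact hs
  set C := mapL (scaleMat ι M) L₃ with hC
  have hCh : C ≤ Lh' := by
    rintro _ hy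
    obtain ⟨y, ⟨hy1, hy2⟩, rfl⟩ := mem_mapL_scale.1 hy
    refine ⟨Submodule.mem_sup_left (mem_mapL_scale.2 ⟨y, hy1, rfl⟩), ?_⟩
    show F.mulVec ((M : ℤ) • y) ∈ MS
    rw [mulVec_smul]
    exact mem_mapL_scale.2 ⟨_, hy2, rfl⟩
  have hgen : Lh' = C ⊔ Submodule.span ℤ {η} := by
    refine le_antisymm ?_ (sup_le hCh ((Submodule.span_singleton_le_iff_mem _ _).2 hηh))
    rintro y ⟨hy, hys⟩
    obtain ⟨a', ha', b, hb, rfl⟩ := Submodule.mem_sup.1 hy
    obtain ⟨x, hx, rfl⟩ := mem_mapL_scale.1 ha'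
    obtain ⟨j, rfl⟩ := Submodule.mem_span_singleton.1 hb
    obtain ⟨c, rfl⟩ := (hqH j).1 ⟨x, hx, by rw [add_comm]; exact hys⟩
    refine Submodule.mem_sup.2 ⟨(M : ℤ) • (x - c • x₀), mem_mapL_scale.2 ⟨x - c • x₀,
      hcancel _ (sub_mem hx (Λ₂.smul_mem _ hx₀)) ?_, rfl⟩, c • η,
      Submodule.smul_mem _ _ (Submodule.mem_span_singleton_self η), ?_⟩
    · have e : (M : ℤ) • (x - c • x₀) = ((M : ℤ) • x + ((q : ℤ) * c) • v) - c • η := by
        rw [hη]; module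
      rw [e, mulVec_sub, mulVec_smul F c η]
      exact sub_mem hys (Submodule.smul_mem _ _ hηh.2)
    · rw [hη]; module
  have hidx' : C.toAddSubgroup.relIndex Lh'.toAddSubgroup * q ≤ M := by
    have e2 : Lh'.toAddSubgroup = C.toAddSubgroup ⊔ (Submodule.span ℤ {η}).toAddSubgroup := by
      rw [hgen]; exact map_sup AddSubgroup.toIntSubmodule.symm _ _
    rw [e2, sup_comm, AddSubgroup.relIndex_sup_right,
      Submodule.span_singleton_toAddSubgroup_eq_zmultiples, ← AddSubgroup.range_zmultiplesHom,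
      ← AddSubgroup.index_comap]
    obtain ⟨n, hn⟩ := hqM
    have hn1 : 1 ≤ n := Nat.pos_of_dvd_of_pos (Dvd.intro_left q hn.symm) hM1
    have hle : AddSubgroup.zmultiples (n : ℤ) ≤
        C.toAddSubgroup.comap (zmultiplesHom (ι → ℤ) η) := by
      rw [AddSubgroup.zmultiples_le, AddSubgroup.mem_comap, Submodule.mem_toAddSubgroup,
        zmultiplesHom_apply]
      have e : (n : ℤ) • η = (M : ℤ) • (v + (n : ℤ) • x₀) := by
        rw [hη, show (M : ℤ) = (q : ℤ) * n by exact_mod_cast hn]; module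
      refine mem_mapL_scale.2 ⟨v + (n : ℤ) • x₀, hcancel _ (add_mem hv (Λ₂.smul_mem _ hx₀)) ?_,
        e.symm⟩
      rw [← e, mulVec_smul]
      exact Submodule.smul_mem _ _ hx₀s
    have hd := AddSubgroup.index_dvd_of_le hle
    rw [Int.index_zmultiples, Int.natAbs_natCast] at hd
    rw [hn, mul_comm q n]
    exact Nat.mul_le_mul_right _ (Nat.le_of_dvd hn1 hd)
  have hrC : finrank ℤ C = finrank ℤ Lh' := finrank_eq_of_smul_le hCh hM0 fun y hy =>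
    mem_mapL_scale.2 ⟨y, hh3 hy, rfl⟩
  have eC := gdet_eq_index 1 hCh hrC
  rw [gdet_scale hM0, ← (finrank_mapL_of_inj (scale_inj hM0 L₃) : finrank ℤ C = finrank ℤ L₃),
    hrC] at eC
  push_cast at eC
  -- the corank
  have hre : e₁ ≤ e := by
    have hle : mapL (scaleMat ι M) Λ ≤ Lh' := by
      rintro _ hy
      obtain ⟨y, hy1, rfl⟩ := mem_mapL_scale.1 hy
      refine ⟨Submodule.mem_sup_left (mem_mapL_scale.2 ⟨y, hΛ hy1, rfl⟩), ?_⟩
      show F.mulVec ((M : ℤ) • y) ∈ MS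
      rw [mulVec_smul]
      exact mem_mapL_scale.2 ⟨_, (minLat_spec _ _ _ _).1 ⟨y, hy1, rfl⟩, rfl⟩
    have h1 := Submodule.finrank_mono hle
    rw [finrank_mapL_of_inj (scale_inj hM0 _)] at h1
    omega
  refine ⟨q, x₀, hq1, hh3 hηh, mem_mapL_scale.1 hηh.2, ?_⟩
  -- combine
  set j := C.toAddSubgroup.relIndex Lh'.toAddSubgroup
  have hj : (j : ℝ) * q ≤ M := by exact_mod_cast hidx'
  set g := gdet 1 Lh
  set g' := gdet 1 Lh'
  set gX := gdet 1 X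
  have pg : ∀ U : Submodule ℤ (ι → ℤ), 0 < gdet 1 U := fun U => gdet_pos PosDef.one U
  have hgX : 0 < gX := gdet_pos PosDef.one X
  -- `g' M^(2 e₁) ≤ m^((8L+2) e₁) g`
  have h1 : g' * ((M : ℝ) ^ 2) ^ e₁ ≤ ((m : ℝ) ^ 2) ^ e₁ * (m : ℝ) ^ (2 * (4 * L) * e₁) * g := by
    refine le_of_mul_le_mul_right ?_ (mul_pos (pow_pos (pow_pos hMR 2)
      (finrank ℤ (S ⊓ X : Submodule ℤ (E → ℤ)))) hgX)
    calc g' * ((M : ℝ) ^ 2) ^ e₁ * (((M : ℝ) ^ 2) ^ finrank ℤ (S ⊓ X : Submodule ℤ (E → ℤ)) * gX)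
        = g' * (((M : ℝ) ^ 2) ^ finrank ℤ X * gX) := by rw [hsplit, pow_add]; ring
      _ ≤ ((m : ℝ) ^ 2) ^ e₁ * (((M : ℝ) ^ 2) ^ finrank ℤ (S ⊓ X : Submodule ℤ (E → ℤ)) *
            gdet 1 (S ⊓ X) * g) := hratio
      _ ≤ ((m : ℝ) ^ 2) ^ e₁ * (((M : ℝ) ^ 2) ^ finrank ℤ (S ⊓ X : Submodule ℤ (E → ℤ)) *
            ((m : ℝ) ^ (2 * (4 * L) * e₁) * gX) * g) :=
          mul_le_mul_of_nonneg_left (mul_le_mul_of_nonneg_right
            (mul_le_mul_of_nonneg_left hXS (by positivity)) (pg _).le) (by positivity)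
      _ = _ := by ring
  have hn2 : finrank ℤ Λ₂ = finrank ℤ Lh' + e₁ := by
    have h : finrank ℤ Lh' ≤ finrank ℤ Lh := Submodule.finrank_mono inf_le_left
    omega
  refine le_of_mul_le_mul_right ?_ (pow_pos (pow_pos hMR 2) (finrank ℤ Lh' + e₁))
  calc (q : ℝ) ^ 2 * gdet 1 L₃ * ((M : ℝ) ^ 2) ^ (finrank ℤ Lh' + e₁)
      = ((j : ℝ) * q) ^ 2 * (g' * ((M : ℝ) ^ 2) ^ e₁) := by
        rw [pow_add]
        linear_combination (q : ℝ) ^ 2 * ((M : ℝ) ^ 2) ^ e₁ * eC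
    _ ≤ (M : ℝ) ^ 2 * (((m : ℝ) ^ 2) ^ e₁ * (m : ℝ) ^ (2 * (4 * L) * e₁) * g) :=
        mul_le_mul (pow_le_pow_left₀ (by positivity) hj 2) h1
          (mul_nonneg (pg _).le (by positivity)) (by positivity)
    _ = ((m : ℝ) ^ 2) ^ e₁ * (m : ℝ) ^ (2 * (4 * L) * e₁) *
          (((M : ℝ) ^ 2) ^ (finrank ℤ Lh' + e₁) * gdet 1 Λ₂) := by
        rw [← hn2]
        linear_combination -((m : ℝ) ^ 2) ^ e₁ * (m : ℝ) ^ (2 * (4 * L) * e₁) * eA
    _ ≤ (m : ℝ) ^ (10 * L * e) * (((M : ℝ) ^ 2) ^ (finrank ℤ Lh' + e₁) * gdet 1 Λ₂) := by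
        refine mul_le_mul_of_nonneg_right ?_ (mul_nonneg (by positivity) (pg _).le)
        rw [← pow_mul, ← pow_add]
        refine pow_le_pow_right₀ (by exact_mod_cast (show 1 ≤ m by omega)) ?_
        nlinarith [Nat.mul_le_mul_left (10 * L) hre, Nat.mul_le_mul_right e₁ hL]
    _ = _ := by ring

end Vale.Agent.P160R.Five
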