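import Vale.Agent.P160R.Five.Defs

/-!
# Scalings and Gram inverses
-/

namespace Vale.Agent.P160R.Five

open Matrix Module Finset

set_option linter.unusedSectionVars false
set_option linter.unusedFintypeInType false
set_option linter.unusedDecidableInType false

variable {ι κ : Type} [Fintype ι] [DecidableEq ι] [Fintype κ] [DecidableEq κ]

/-- Multiplication by `M` as a matrix. -/
def scaleMat (ι : Type) [DecidableEq ι] (M : ℤ) : Matrix ι ι ℤ := M • 1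

lemma scaleMat_mulVec (M : ℤ) (x : ι → ℤ) : scaleMat ι M *ᵥ x = M • x := by
  rw [scaleMat, smul_mulVec, one_mulVec]

lemma mem_mapL_scale {M : ℤ} {U : Submodule ℤ (ι → ℤ)} {y : ι → ℤ} :
    y ∈ mapL (scaleMat ι M) U ↔ ∃ x ∈ U, M • x = y := by
  simp [mapL, scaleMat_mulVec]

lemma finrank_mapL_of_inj {F : Matrix κ ι ℤ} {U : Submodule ℤ (ι → ℤ)}
    (hF : ∀ u ∈ U, F.mulVec u = 0 → u = 0) : finrank ℤ (mapL F U) = finrank ℤ U := by
  rw [mapL, ← ((isBasisMat_basisMat U).map F hF).card_eq, Fintype.card_fin]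

lemma scale_inj {M : ℤ} (hM : M ≠ 0) (U : Submodule ℤ (ι → ℤ)) :
    ∀ u ∈ U, (scaleMat ι M).mulVec u = 0 → u = 0 := fun u _ h => by
  rw [scaleMat_mulVec] at h
  exact (smul_eq_zero.1 h).resolve_left hM

lemma gdet_scale {M : ℤ} (hM : M ≠ 0) (U : Submodule ℤ (ι → ℤ)) :
    gdet 1 (mapL (scaleMat ι M) U) = ((M : ℝ) ^ 2) ^ finrank ℤ U * gdet 1 U := by
  rw [mapL, gdet_map 1 U _ (scale_inj hM U), Matrix.mul_one]
  have e : (toR (scaleMat ι M))ᵀ * toR (scaleMat ι M) = ((M : ℝ) ^ 2) • (1 : Matrix ι ι ℝ) := by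
    have : toR (scaleMat ι M) = (M : ℝ) • (1 : Matrix ι ι ℝ) := by
      ext i l
      by_cases h : i = l <;> simp [toR, scaleMat, Matrix.intCast_apply, Matrix.diagonal_apply, h]
    rw [this, transpose_smul, transpose_one, Matrix.smul_mul, Matrix.one_mul, smul_smul, pow_two]
  rw [e, gdet_smul_form]

lemma toR_gram (Z : Matrix ι κ ℤ) : toR (Zᵀ * Z) = (toR Z)ᵀ * toR Z := by
  rw [toR_mul]; rfl

lemma gramR_posDef {Z : Matrix ι κ ℤ} (hZ : Function.Injective Z.mulVec) :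
    (toR (Zᵀ * Z)).PosDef := by
  rw [toR_gram]
  simpa using gram_posDef PosDef.one (toR_injective hZ)

lemma gdet_one_basisMat (U : Submodule ℤ (ι → ℤ)) :
    gdet 1 U = (toR ((basisMat U)ᵀ * basisMat U)).det := by
  rw [gdet, Matrix.mul_one, toR_gram]

lemma one_le_gdet_int {G : Matrix ι ι ℤ} (hG : (toR G).PosDef) (U : Submodule ℤ (ι → ℤ)) :
    1 ≤ gdet (toR G) U := by
  have e : gdet (toR G) U = (((basisMat U)ᵀ * G * basisMat U).det : ℤ) := by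
    rw [gdet, show ((((basisMat U)ᵀ * G * basisMat U).det : ℤ) : ℝ) =
      (toR ((basisMat U)ᵀ * G * basisMat U)).det from (Int.castRingHom ℝ).map_det _, toR_mul,
      toR_mul]
    rfl
  have h := gdet_pos hG U
  rw [e] at h ⊢
  have h0 : (0 : ℤ) < ((basisMat U)ᵀ * G * basisMat U).det := by exact_mod_cast h
  exact_mod_cast h0

/-- The coordinates of a vector on a lattice measure at most its length. -/
lemma proj_le {Z : Matrix ι κ ℤ} (hZ : Function.Injective Z.mulVec) (y : ι → ℝ) :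
    ((toR Z)ᵀ *ᵥ y) ⬝ᵥ (toR (Zᵀ * Z))⁻¹ *ᵥ ((toR Z)ᵀ *ᵥ y) ≤ y ⬝ᵥ y := by
  have hG := gramR_posDef hZ
  set c := (toR (Zᵀ * Z))⁻¹ *ᵥ ((toR Z)ᵀ *ᵥ y) with hc
  set u := toR Z *ᵥ c
  have h1 : y ⬝ᵥ u = ((toR Z)ᵀ *ᵥ y) ⬝ᵥ c := by
    rw [dotProduct_mulVec, ← mulVec_transpose]
  have h2 : u ⬝ᵥ u = ((toR Z)ᵀ *ᵥ y) ⬝ᵥ c := by
    rw [dotProduct_mulVec, ← mulVec_transpose, mulVec_mulVec, ← toR_gram, hc, mulVec_mulVec,
      mul_nonsing_inv _ hG.det_pos.ne'.isUnit, one_mulVec]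
  have h3 : 0 ≤ (y - u) ⬝ᵥ (y - u) := sum_nonneg fun i _ => mul_self_nonneg _
  rw [sub_dotProduct, dotProduct_sub, dotProduct_sub, dotProduct_comm u y, h1, h2] at h3
  linarith

lemma vecMul_sq_le (Z : Matrix ι κ ℤ) (N : κ → ℝ) (hG : (toR (Zᵀ * Z)).PosDef) :
    (toR Z *ᵥ ((toR (Zᵀ * Z))⁻¹ *ᵥ N)) ⬝ᵥ (toR Z *ᵥ ((toR (Zᵀ * Z))⁻¹ *ᵥ N)) =
      N ⬝ᵥ (toR (Zᵀ * Z))⁻¹ *ᵥ N := by
  rw [dotProduct_mulVec, ← mulVec_transpose, mulVec_mulVec, ← toR_gram, mulVec_mulVec,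
    mul_nonsing_inv _ hG.det_pos.ne'.isUnit, one_mulVec]

/-- Rows of a sign matrix act with norm at most `m`. -/
lemma rowMat_norm {B : Matrix ι ι ℤ} (hB : IsSign B) (E : Finset ι) (x : ι → ℝ) :
    (toR (rowMat B E) *ᵥ x) ⬝ᵥ (toR (rowMat B E) *ᵥ x) ≤
      (Fintype.card ι : ℝ) ^ 2 * (x ⬝ᵥ x) := by
  have hrow : ∀ i : E, (toR (rowMat B E) *ᵥ x) i ^ 2 ≤ (Fintype.card ι : ℝ) * (x ⬝ᵥ x) := by
    intro i
    have h := sum_mul_sq_le_sq_mul_sq univ (fun l => (B i.1 l : ℝ)) x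
    have e : ∑ l, (B i.1 l : ℝ) ^ 2 = Fintype.card ι := by
      rw [← card_univ, cast_card]
      refine sum_congr rfl fun l _ => ?_
      rcases hB.2 i.1 l with h | h <;> simp [h]
    rw [e] at h
    simpa [dotProduct, mulVec, toR, rowMat, pow_two] using h
  have hx : 0 ≤ x ⬝ᵥ x := sum_nonneg fun i _ => mul_self_nonneg _
  calc (toR (rowMat B E) *ᵥ x) ⬝ᵥ (toR (rowMat B E) *ᵥ x)
      = ∑ i, (toR (rowMat B E) *ᵥ x) i ^ 2 := by simp [dotProduct, pow_two]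
    _ ≤ ∑ _i : E, (Fintype.card ι : ℝ) * (x ⬝ᵥ x) := sum_le_sum fun i _ => hrow i
    _ = E.card * ((Fintype.card ι : ℝ) * (x ⬝ᵥ x)) := by simp
    _ ≤ Fintype.card ι * ((Fintype.card ι : ℝ) * (x ⬝ᵥ x)) :=
        mul_le_mul_of_nonneg_right (Nat.cast_le.2 E.card_le_univ) (by positivity)
    _ = _ := by ring

/-- The transpose obeys the same bound. -/
lemma rowMat_transpose_norm {B : Matrix ι ι ℤ} (hB : IsSign B) (E : Finset ι) (x : E → ℝ) :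
    ((toR (rowMat B E))ᵀ *ᵥ x) ⬝ᵥ ((toR (rowMat B E))ᵀ *ᵥ x) ≤
      (Fintype.card ι : ℝ) ^ 2 * (x ⬝ᵥ x) := by
  have hrow : ∀ l : ι, ((toR (rowMat B E))ᵀ *ᵥ x) l ^ 2 ≤ (Fintype.card ι : ℝ) * (x ⬝ᵥ x) := by
    intro l
    have h := sum_mul_sq_le_sq_mul_sq univ (fun i : E => (B i.1 l : ℝ)) x
    have e : ∑ i : E, (B i.1 l : ℝ) ^ 2 ≤ Fintype.card ι := by
      refine le_trans (le_of_eq ?_) (Nat.cast_le.2 E.card_le_univ)
      rw [← Fintype.card_coe, ← card_univ, cast_card]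
      refine sum_congr rfl fun i _ => ?_
      rcases hB.2 i.1 l with h | h <;> simp [h]
    have h' := h.trans (mul_le_mul_of_nonneg_right e (sum_nonneg fun i _ => sq_nonneg _))
    simpa [dotProduct, mulVec, toR, rowMat, pow_two] using h'
  calc ((toR (rowMat B E))ᵀ *ᵥ x) ⬝ᵥ ((toR (rowMat B E))ᵀ *ᵥ x)
      = ∑ l, ((toR (rowMat B E))ᵀ *ᵥ x) l ^ 2 := by simp [dotProduct, pow_two]
    _ ≤ ∑ _l : ι, (Fintype.card ι : ℝ) * (x ⬝ᵥ x) := sum_le_sum fun l _ => hrow l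
    _ = _ := by simp; ring

end Vale.Agent.P160R.Five
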